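import Mathlib
import Crest.Agent.Helper9.Area
import Crest.Agent.Helper9.Proj

/-!
# Glue lemmas for cylinder covers (helper9, row 211, package E support)

* `K0_scaled`: the standard tetrahedron in scaled coordinates;
* `triCyl_proj_eq`: the cylinder over an oblique triangle equals the cylinder over its projection
  onto the plane perpendicular to the axis;
* `triCyl_image_isometry`: image of a triangle cylinder under an affine isometry;
* `cover_append`: concatenation of two families of triangle cylinders.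
-/

set_option autoImplicit false
open MeasureTheory

namespace Crest.Agent.Helper9

open Crest.Agent.Helper9.Area

/-- The cylinder with axis `u` over the triangle `conv {p, q, r}`. -/
def tcyl (u p q r : Area.E3) : Set Area.E3 :=
  {x : Area.E3 | ∃ b ∈ convexHull ℝ ({p, q, r} : Set Area.E3), ∃ t : ℝ, x = b + t • u}

theorem mem_tcyl {u p q r x : Area.E3} :
    x ∈ tcyl u p q r ↔ ∃ b ∈ convexHull ℝ ({p, q, r} : Set Area.E3), ∃ t : ℝ, x = b + t • u :=
  Iff.rfl

/-- (g1) The standard tetrahedron in scaled coordinates. -/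
theorem K0_scaled {x : Area.E3}
    (hx : x ∈ convexHull ℝ ({!₂[1, 0, 0], !₂[-1, 0, 0], !₂[0, 1, Real.sqrt 2],
      !₂[0, -1, Real.sqrt 2]} : Set Area.E3)) :
    |x 0| ≤ 1 - x 2 / Real.sqrt 2 ∧ |x 1| ≤ x 2 / Real.sqrt 2 := by
  have hσ0 : 0 < Real.sqrt 2 := by positivity
  have hσσ : Real.sqrt 2 / Real.sqrt 2 = 1 := div_self hσ0.ne'
  have hconv : Convex ℝ {x : Area.E3 | |x 0| ≤ 1 - x 2 / Real.sqrt 2 ∧
      |x 1| ≤ x 2 / Real.sqrt 2} := by
    intro x hx y hy a b ha hb hab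
    obtain ⟨hx1, hx2⟩ := hx
    obtain ⟨hy1, hy2⟩ := hy
    rw [abs_le] at hx1 hx2 hy1 hy2
    have hb' : b = 1 - a := by linarith
    subst hb'
    constructor
    · show |(a • x + (1 - a) • y) 0| ≤ 1 - (a • x + (1 - a) • y) 2 / Real.sqrt 2
      simp only [PiLp.add_apply, PiLp.smul_apply, smul_eq_mul]
      rw [abs_le, add_div, mul_div_assoc, mul_div_assoc]
      constructor <;> nlinarith [hx1.1, hx1.2, hy1.1, hy1.2]
    · show |(a • x + (1 - a) • y) 1| ≤ (a • x + (1 - a) • y) 2 / Real.sqrt 2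
      simp only [PiLp.add_apply, PiLp.smul_apply, smul_eq_mul]
      rw [abs_le, add_div, mul_div_assoc, mul_div_assoc]
      constructor <;> nlinarith [hx2.1, hx2.2, hy2.1, hy2.2]
  have hsub : ({!₂[1, 0, 0], !₂[-1, 0, 0], !₂[0, 1, Real.sqrt 2],
      !₂[0, -1, Real.sqrt 2]} : Set Area.E3) ⊆ {x : Area.E3 | |x 0| ≤ 1 - x 2 / Real.sqrt 2 ∧
      |x 1| ≤ x 2 / Real.sqrt 2} := by
    intro v hv
    rcases hv with rfl | rfl | rfl | rfl
    · constructor <;> simp
    · constructor <;> simp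
    · constructor <;> simp
    · constructor <;> simp
  exact convexHull_min hsub hconv hx

/-- (g2') The cylinder over an oblique triangle is the cylinder over its projection onto the
plane perpendicular to the axis. -/
theorem tcyl_proj_eq (d P Q R : Area.E3) :
    tcyl d (proj d P) (proj d Q) (proj d R) = tcyl d P Q R := by
  ext x
  rw [mem_tcyl, mem_tcyl, ← proj_image_triangle]
  constructor
  · rintro ⟨b, ⟨y, hy, rfl⟩, t, rfl⟩
    refine ⟨y, hy, t - inner ℝ y d / ‖d‖ ^ 2, ?_⟩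
    simp only [proj]
    module
  · rintro ⟨y, hy, t, rfl⟩
    refine ⟨proj d y, ⟨y, hy, rfl⟩, t + inner ℝ y d / ‖d‖ ^ 2, ?_⟩
    simp only [proj]
    module

/-- Image of a triangle under an affine isometry. -/
theorem image_triangle_isometry (A : Area.E3 ≃ₗᵢ[ℝ] Area.E3) (c₀ p q r : Area.E3) :
    (fun x => c₀ + A x) '' convexHull ℝ ({p, q, r} : Set Area.E3)
      = convexHull ℝ ({c₀ + A p, c₀ + A q, c₀ + A r} : Set Area.E3) := by
  rw [convexHull_triple_eq, convexHull_triple_eq]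
  ext x
  constructor
  · rintro ⟨y, ⟨s, t, hs, ht, hst, rfl⟩, rfl⟩
    refine ⟨s, t, hs, ht, hst, ?_⟩
    simp only [map_add, map_smul, map_sub]
    module
  · rintro ⟨s, t, hs, ht, hst, rfl⟩
    refine ⟨p + s • (q - p) + t • (r - p), ⟨s, t, hs, ht, hst, rfl⟩, ?_⟩
    simp only [map_add, map_smul, map_sub]
    module

/-- Image of a triangle cylinder under an affine isometry (oblique form). -/
theorem image_tcyl_isometry (A : Area.E3 ≃ₗᵢ[ℝ] Area.E3) (c₀ u p q r : Area.E3) :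
    (fun x => c₀ + A x) '' tcyl u p q r = tcyl (A u) (c₀ + A p) (c₀ + A q) (c₀ + A r) := by
  ext x
  rw [mem_tcyl, ← image_triangle_isometry]
  constructor
  · rintro ⟨y, ⟨b, hb, t, rfl⟩, rfl⟩
    refine ⟨c₀ + A b, ⟨b, hb, rfl⟩, t, ?_⟩
    simp only [map_add, map_smul]
    module
  · rintro ⟨b', ⟨b, hb, rfl⟩, t, rfl⟩
    refine ⟨b + t • u, ⟨b, hb, t, rfl⟩, ?_⟩
    simp only [map_add, map_smul]
    module

/-- (g2) Image of a triangle cylinder with perpendicular base under an affine isometry, again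
with perpendicular base and the same Gram determinant. -/
theorem triCyl_image_isometry (A : Area.E3 ≃ₗᵢ[ℝ] Area.E3) (c₀ u p q r : Area.E3)
    (hu : ‖u‖ = 1) (hp : inner ℝ p u = 0) (hq : inner ℝ q u = 0) (hr : inner ℝ r u = 0) :
    ∃ p' q' r' : Area.E3,
      (inner ℝ p' (A u) = 0 ∧ inner ℝ q' (A u) = 0 ∧ inner ℝ r' (A u) = 0) ∧
      (fun x => c₀ + A x) '' {x : Area.E3 | ∃ b ∈ convexHull ℝ ({p, q, r} : Set Area.E3),
          ∃ t : ℝ, x = b + t • u}
        = {x : Area.E3 | ∃ b ∈ convexHull ℝ ({p', q', r'} : Set Area.E3),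
          ∃ t : ℝ, x = b + t • A u} ∧
      gram (q' - p') (r' - p') = gram (q - p) (r - p) := by
  have hAu : A u ≠ 0 := by
    intro h
    have : ‖A u‖ = 1 := by rw [A.norm_map, hu]
    rw [h, norm_zero] at this
    exact zero_ne_one this
  refine ⟨proj (A u) (c₀ + A p), proj (A u) (c₀ + A q), proj (A u) (c₀ + A r),
    ⟨inner_proj_self _ _ hAu, inner_proj_self _ _ hAu, inner_proj_self _ _ hAu⟩, ?_, ?_⟩
  · have h1 := image_tcyl_isometry A c₀ u p q r
    have h2 := tcyl_proj_eq (A u) (c₀ + A p) (c₀ + A q) (c₀ + A r)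
    exact h1.trans h2.symm
  · have e1 : proj (A u) (c₀ + A q) - proj (A u) (c₀ + A p) = A (q - p) := by
      rw [← projL_apply, ← projL_apply, ← map_sub, projL_apply]
      have : c₀ + A q - (c₀ + A p) = A (q - p) := by rw [map_sub]; abel
      rw [this]
      apply proj_of_perp
      rw [A.inner_map_map, inner_sub_left, hq, hp, sub_zero]
    have e2 : proj (A u) (c₀ + A r) - proj (A u) (c₀ + A p) = A (r - p) := by
      rw [← projL_apply, ← projL_apply, ← map_sub, projL_apply]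
      have : c₀ + A r - (c₀ + A p) = A (r - p) := by rw [map_sub]; abel
      rw [this]
      apply proj_of_perp
      rw [A.inner_map_map, inner_sub_left, hr, hp, sub_zero]
    rw [e1, e2]
    unfold gram
    rw [A.norm_map, A.norm_map, A.inner_map_map]

/-- (g3) Concatenation of two families of triangle cylinders. -/
theorem cover_append {K : Set Area.E3} {m n : ℕ} (u₁ p₁ q₁ r₁ : Fin m → Area.E3)
    (u₂ p₂ q₂ r₂ : Fin n → Area.E3)
    (hu₁ : ∀ i, ‖u₁ i‖ = 1) (hu₂ : ∀ i, ‖u₂ i‖ = 1)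
    (hperp₁ : ∀ i, inner ℝ (p₁ i) (u₁ i) = 0 ∧ inner ℝ (q₁ i) (u₁ i) = 0 ∧
      inner ℝ (r₁ i) (u₁ i) = 0)
    (hperp₂ : ∀ i, inner ℝ (p₂ i) (u₂ i) = 0 ∧ inner ℝ (q₂ i) (u₂ i) = 0 ∧
      inner ℝ (r₂ i) (u₂ i) = 0)
    (hpos₁ : ∀ i, 0 < gram (q₁ i - p₁ i) (r₁ i - p₁ i))
    (hpos₂ : ∀ i, 0 < gram (q₂ i - p₂ i) (r₂ i - p₂ i))
    (hcov : K ⊆ (⋃ i, {x : Area.E3 | ∃ b ∈ convexHull ℝ ({p₁ i, q₁ i, r₁ i} : Set Area.E3),
        ∃ t : ℝ, x = b + t • u₁ i}) ∪
      (⋃ i, {x : Area.E3 | ∃ b ∈ convexHull ℝ ({p₂ i, q₂ i, r₂ i} : Set Area.E3),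
        ∃ t : ℝ, x = b + t • u₂ i})) :
    ∃ (u p q r : Fin (m + n) → Area.E3), (∀ i, ‖u i‖ = 1) ∧
      (∀ i, inner ℝ (p i) (u i) = 0 ∧ inner ℝ (q i) (u i) = 0 ∧ inner ℝ (r i) (u i) = 0) ∧
      (∀ i, 0 < gram (q i - p i) (r i - p i)) ∧
      K ⊆ (⋃ i, {x : Area.E3 | ∃ b ∈ convexHull ℝ ({p i, q i, r i} : Set Area.E3),
        ∃ t : ℝ, x = b + t • u i}) ∧
      ∑ i, Real.sqrt (gram (q i - p i) (r i - p i)) / 2
        = ∑ i, Real.sqrt (gram (q₁ i - p₁ i) (r₁ i - p₁ i)) / 2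
          + ∑ i, Real.sqrt (gram (q₂ i - p₂ i) (r₂ i - p₂ i)) / 2 := by
  refine ⟨Fin.append u₁ u₂, Fin.append p₁ p₂, Fin.append q₁ q₂, Fin.append r₁ r₂, ?_, ?_, ?_, ?_,
    ?_⟩
  · intro i
    refine Fin.addCases (fun i => ?_) (fun j => ?_) i
    · rw [Fin.append_left]; exact hu₁ i
    · rw [Fin.append_right]; exact hu₂ j
  · intro i
    refine Fin.addCases (fun i => ?_) (fun j => ?_) i
    · simp only [Fin.append_left]; exact hperp₁ i
    · simp only [Fin.append_right]; exact hperp₂ j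
  · intro i
    refine Fin.addCases (fun i => ?_) (fun j => ?_) i
    · simp only [Fin.append_left]; exact hpos₁ i
    · simp only [Fin.append_right]; exact hpos₂ j
  · intro x hx
    rcases hcov hx with h | h
    · obtain ⟨i, hi⟩ := Set.mem_iUnion.mp h
      refine Set.mem_iUnion.mpr ⟨Fin.castAdd n i, ?_⟩
      simp only [Fin.append_left]
      exact hi
    · obtain ⟨j, hj⟩ := Set.mem_iUnion.mp h
      refine Set.mem_iUnion.mpr ⟨Fin.natAdd m j, ?_⟩
      simp only [Fin.append_right]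
      exact hj
  · rw [Fin.sum_univ_add]
    simp only [Fin.append_left, Fin.append_right]

end Crest.Agent.Helper9
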